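import Vale.Agent.P346.Defs
import Vale.Agent.P346.Lower
import Vale.Agent.P346.Upper

namespace Vale.Agent.Results.P346.Theta

open Vale.Agent.P346

universe u

/-- For every field `K` and all large `n` (uniformly in `K`), the least size of a syntactically
homogeneous depth-five circuit for `IMM_{n,n}` lies between `n ^ (√n / 256)` and `n ^ (2 √n)`. -/
theorem result : ∃ n₀ : ℕ, ∀ (K : Type u) [Field K] (n : ℕ) [NeZero n], n₀ ≤ n →
    ((n : ℝ) ^ (√n / 256) ≤ (minSize K n : ℝ) ∧ (minSize K n : ℝ) ≤ (n : ℝ) ^ (2 * √n)) ∧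
    (∀ c : Circuit K (Fin n × Fin n × Fin n), c.Homogeneous → c.output = IMM K n n →
      (n : ℝ) ^ (√n / 256) ≤ (c.size : ℝ)) ∧
    (∃ c : Circuit K (Fin n × Fin n × Fin n), c.Homogeneous ∧ c.NoEmptyGate ∧
      c.output = IMM K n n ∧ (c.size : ℝ) ≤ (n : ℝ) ^ (2 * √n)) := by
  refine ⟨max 16 ⌈Real.exp 2048⌉₊, fun K _ n _ hn => ?_⟩
  have h16 : 16 ≤ n := (le_max_left _ _).trans hn
  have hexp : Real.exp 2048 ≤ n := Nat.ceil_le.mp ((le_max_right _ _).trans hn)
  have hlow : ∀ c : Circuit K (Fin n × Fin n × Fin n), c.Homogeneous → c.output = IMM K n n →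
      (n : ℝ) ^ (√n / 256) ≤ (c.size : ℝ) := by
    intro c hc hout
    have := lower_bound hexp c hc hout
    rwa [show (1 / 256 * √n : ℝ) = √n / 256 by ring] at this
  obtain ⟨c, h1, h2, h3, h4⟩ := upper_bound K n h16
  refine ⟨⟨?_, ?_⟩, hlow, c, h1, h2, h3, h4⟩
  · have hne : {s : ℕ | ∃ c : Circuit K (Fin n × Fin n × Fin n),
        c.Homogeneous ∧ c.output = IMM K n n ∧ c.size = s}.Nonempty := ⟨_, c, h1, h3, rfl⟩
    obtain ⟨c', h1', h2', h3'⟩ := Nat.sInf_mem hne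
    unfold minSize
    rw [← h3']
    exact hlow c' h1' h2'
  · refine le_trans ?_ h4
    have : minSize K n ≤ c.size := Nat.sInf_le ⟨c, h1, h3, rfl⟩
    exact_mod_cast this

end Vale.Agent.Results.P346.Theta
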